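import Mathlib

/-!
# P255: translation lengths of commuting isometries of a space with the CN inequality

For commuting isometries the squared translation length satisfies the parallelogram law, and an
isometry `f` of positive translation length gives an additive function on its centraliser which
agrees with the inner product against `f`.
-/

open Filter Topology

noncomputable section

namespace Vale.Agent.P255.Cat

variable {X : Type*} [PseudoMetricSpace X]

/-- The CN inequality: midpoints exist and squared distance is strictly convex along them. -/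
def CN (X : Type*) [PseudoMetricSpace X] : Prop :=
  ∀ a b : X, ∃ m : X, ∀ z : X,
    dist z m ^ 2 ≤ dist z a ^ 2 / 2 + dist z b ^ 2 / 2 - dist a b ^ 2 / 4

/-- A point at parameter `t` of a segment. -/
def AtParam (a b x : X) (t : ℝ) : Prop :=
  ∀ z : X, dist z x ^ 2 ≤ (1 - t) * dist z a ^ 2 + t * dist z b ^ 2 - t * (1 - t) * dist a b ^ 2

lemma atParam_dist {a b x : X} {t : ℝ} (h : AtParam a b x t) (h0 : 0 ≤ t) (h1 : t ≤ 1) :
    dist a x = t * dist a b ∧ dist b x = (1 - t) * dist a b := by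
  have hd : 0 ≤ dist a b := dist_nonneg
  have ha := h a
  have hb := h b
  rw [dist_self] at ha hb
  rw [dist_comm b a] at hb
  have ha' : dist a x ≤ t * dist a b := by
    refine (pow_le_pow_iff_left₀ dist_nonneg (mul_nonneg h0 hd) two_ne_zero).1 ?_
    nlinarith
  have hb' : dist b x ≤ (1 - t) * dist a b := by
    refine (pow_le_pow_iff_left₀ dist_nonneg (mul_nonneg (by linarith) hd) two_ne_zero).1 ?_
    nlinarith
  have htri : dist a b ≤ dist a x + dist x b := dist_triangle a x b
  rw [dist_comm x b] at htri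
  constructor <;> linarith

lemma atParam_mid (hX : CN X) {a b x y : X} {s t : ℝ} (hx : AtParam a b x s)
    (hy : AtParam a b y t) (hs0 : 0 ≤ s) (hs1 : s ≤ 1) (ht0 : 0 ≤ t) (ht1 : t ≤ 1) :
    ∃ m, AtParam a b m ((s + t) / 2) := by
  obtain ⟨m, hm⟩ := hX x y
  refine ⟨m, fun z => ?_⟩
  have hxy : (t - s) ^ 2 * dist a b ^ 2 ≤ dist x y ^ 2 := by
    have h := abs_dist_sub_le y x a
    rw [dist_comm y a, dist_comm x a, (atParam_dist hy ht0 ht1).1,
      (atParam_dist hx hs0 hs1).1, dist_comm y x] at h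
    calc (t - s) ^ 2 * dist a b ^ 2 = |t * dist a b - s * dist a b| ^ 2 := by rw [sq_abs]; ring
      _ ≤ dist x y ^ 2 := pow_le_pow_left₀ (abs_nonneg _) h 2
  have h1 := hm z
  have h2 := hx z
  have h3 := hy z
  nlinarith

lemma exists_atParam (hX : CN X) (a b : X) :
    ∀ n k : ℕ, k ≤ 2 ^ n → ∃ x, AtParam a b x ((k : ℝ) / 2 ^ n) := by
  intro n
  induction n with
  | zero =>
    intro k hk
    rcases Nat.le_one_iff_eq_zero_or_eq_one.1 (by simpa using hk) with rfl | rfl
    · exact ⟨a, fun z => by simp⟩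
    · exact ⟨b, fun z => by simp⟩
  | succ n ih =>
    intro k hk
    rw [pow_succ] at hk
    obtain ⟨j, rfl | rfl⟩ := Nat.even_or_odd' k
    · obtain ⟨x, hx⟩ := ih j (by omega)
      refine ⟨x, ?_⟩
      convert hx using 1
      push_cast
      rw [pow_succ]
      field_simp
    · have hj : j + 1 ≤ 2 ^ n := by omega
      obtain ⟨x, hx⟩ := ih j (by omega)
      obtain ⟨y, hy⟩ := ih (j + 1) hj
      have hle : ∀ i : ℕ, i ≤ 2 ^ n → 0 ≤ (i : ℝ) / 2 ^ n ∧ (i : ℝ) / 2 ^ n ≤ 1 := fun i hi =>
        ⟨by positivity, by rw [div_le_one (by positivity)]; exact_mod_cast hi⟩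
      obtain ⟨m, hm⟩ := atParam_mid hX hx hy (hle j (by omega)).1 (hle j (by omega)).2
        (hle (j + 1) hj).1 (hle (j + 1) hj).2
      refine ⟨m, ?_⟩
      convert hm using 1
      push_cast
      rw [pow_succ]
      field_simp
      ring

/-- Twice the quasi inner product of `a → b` and `c → d`. -/
def qip (a b c d : X) : ℝ := dist a d ^ 2 + dist b c ^ 2 - dist a c ^ 2 - dist b d ^ 2

lemma four_point_param {a b c d x : X} {t : ℝ} (hx : AtParam b d x t) (h0 : 0 < t) (h1 : t < 1) :
    dist a c ^ 2 + dist b d ^ 2 ≤ dist a d ^ 2 + dist b c ^ 2 +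
      ((1 - t) / t * dist a b ^ 2 + t / (1 - t) * dist c d ^ 2) := by
  have ha := hx a
  have hc := hx c
  rw [dist_comm c b] at hc
  have htri : dist a c ≤ dist a x + dist c x := by
    simpa [dist_comm c x] using dist_triangle a x c
  have h2 : dist a c ^ 2 ≤ (dist a x + dist c x) ^ 2 := pow_le_pow_left₀ dist_nonneg htri 2
  have h1' : 0 < 1 - t := by linarith
  have h3 : (dist a x + dist c x) ^ 2 ≤ dist a x ^ 2 / t + dist c x ^ 2 / (1 - t) := by
    rw [div_add_div _ _ h0.ne' h1'.ne', le_div_iff₀ (mul_pos h0 h1')]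
    nlinarith [sq_nonneg ((1 - t) * dist a x - t * dist c x)]
  have h4 : dist a x ^ 2 / t ≤
      (1 - t) / t * dist a b ^ 2 + dist a d ^ 2 - (1 - t) * dist b d ^ 2 := by
    rw [div_le_iff₀ h0]
    calc dist a x ^ 2 ≤ _ := ha
      _ = _ := by field_simp
  have h5 : dist c x ^ 2 / (1 - t) ≤
      dist b c ^ 2 + t / (1 - t) * dist c d ^ 2 - t * dist b d ^ 2 := by
    rw [div_le_iff₀ h1']
    calc dist c x ^ 2 ≤ _ := hc
      _ = _ := by field_simp
  linarith

/-- The dyadic approximation of a parameter. -/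
def dyad (t : ℝ) (n : ℕ) : ℝ := (⌊t * 2 ^ n⌋₊ : ℝ) / 2 ^ n

lemma tendsto_dyad {t : ℝ} (ht : 0 ≤ t) : Tendsto (dyad t) atTop (𝓝 t) := by
  have h2 : Tendsto (fun n : ℕ => (2 : ℝ) ^ n) atTop atTop :=
    tendsto_pow_atTop_atTop_of_one_lt one_lt_two
  exact (tendsto_nat_floor_mul_div_atTop ht).comp h2

/-- The four point inequality. -/
lemma four_point (hX : CN X) (a b c d : X) :
    dist a c ^ 2 + dist b d ^ 2 ≤ dist a d ^ 2 + dist b c ^ 2 + 2 * dist a b * dist c d := by
  refine le_of_forall_pos_le_add fun e he => ?_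
  have hd : 0 < e + 1 := by linarith
  set D := dist a b + dist c d + 1 with hD
  have hD0 : 0 < D := by positivity
  set δ := min 1 (e / (2 * D)) with hδ
  have hδ0 : 0 < δ := lt_min one_pos (by positivity)
  have hδ1 : δ ≤ 1 := min_le_left _ _
  have hδe : δ * (2 * D) ≤ e := by
    rw [← le_div_iff₀ (by positivity)]; exact min_le_right _ _
  set A := dist a b + δ with hA
  set B := dist c d + δ with hB
  have hA0 : 0 < A := by positivity
  have hB0 : 0 < B := by positivity
  set t := A / (A + B) with ht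
  have ht0 : 0 < t := by positivity
  have ht1 : t < 1 := by rw [ht, div_lt_one (by positivity)]; linarith
  have key : dist a c ^ 2 + dist b d ^ 2 ≤ dist a d ^ 2 + dist b c ^ 2 +
      ((1 - t) / t * dist a b ^ 2 + t / (1 - t) * dist c d ^ 2) := by
    have hlim : Tendsto (fun n => dist a d ^ 2 + dist b c ^ 2 +
        ((1 - dyad t n) / dyad t n * dist a b ^ 2 + dyad t n / (1 - dyad t n) * dist c d ^ 2))
        atTop (𝓝 (dist a d ^ 2 + dist b c ^ 2 +
          ((1 - t) / t * dist a b ^ 2 + t / (1 - t) * dist c d ^ 2))) := by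
      have hc : ContinuousAt (fun u : ℝ => dist a d ^ 2 + dist b c ^ 2 +
          ((1 - u) / u * dist a b ^ 2 + u / (1 - u) * dist c d ^ 2)) t := by
        fun_prop (disch := linarith)
      exact hc.tendsto.comp (tendsto_dyad ht0.le)
    refine ge_of_tendsto hlim ?_
    have hev := (tendsto_dyad ht0.le).eventually (Ioo_mem_nhds ht0 ht1)
    filter_upwards [hev] with n hn
    obtain ⟨x, hx⟩ := exists_atParam hX b d n ⌊t * 2 ^ n⌋₊ (Nat.floor_le_of_le (by
      push_cast
      exact mul_le_of_le_one_left (by positivity) ht1.le))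
    exact four_point_param hx hn.1 hn.2
  refine key.trans ?_
  have e1 : (1 - t) / t = B / A := by rw [ht]; field_simp; ring
  have e2 : t / (1 - t) = A / B := by
    have h : 1 - t = B / (A + B) := by rw [ht]; field_simp; ring
    rw [h, ht, div_div_div_cancel_right₀ (by positivity)]
  have h3 : (1 - t) / t * dist a b ^ 2 + t / (1 - t) * dist c d ^ 2 ≤ 2 * A * B := by
    rw [e1, e2]
    have h4 : B / A * dist a b ^ 2 ≤ B * A := by
      rw [div_mul_eq_mul_div, div_le_iff₀ hA0]
      nlinarith [pow_le_pow_left₀ dist_nonneg (show dist a b ≤ A by linarith) 2]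
    have h5 : A / B * dist c d ^ 2 ≤ A * B := by
      rw [div_mul_eq_mul_div, div_le_iff₀ hB0]
      nlinarith [pow_le_pow_left₀ dist_nonneg (show dist c d ≤ B by linarith) 2]
    linarith
  nlinarith [dist_nonneg (x := a) (y := b), dist_nonneg (x := c) (y := d)]

lemma abs_qip_le (hX : CN X) (a b c d : X) : |qip a b c d| ≤ 2 * dist a b * dist c d := by
  have h1 := four_point hX a b d c
  have h2 := four_point hX a b c d
  rw [dist_comm d c] at h1
  exact abs_le.2 ⟨by unfold qip; linarith, by unfold qip; linarith⟩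

/-! ### Translation lengths -/

variable {G : Type*} [Group G] [MulAction G X] [IsIsometricSMul G X]

lemma dist_smul_smul_left (g : G) (x y : X) : dist (g • x) (g • y) = dist x y := dist_smul g x y

/-- The displacement of the `n`th power at `o`. -/
def disp (o : X) (g : G) (n : ℕ) : ℝ := dist o (g ^ n • o)

lemma disp_subadditive (o : X) (g : G) : Subadditive (disp o g) := by
  intro m n
  unfold disp
  rw [pow_add, mul_smul]
  exact (dist_triangle _ (g ^ m • o) _).trans_eq (by rw [dist_smul])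

/-- The translation length. -/
def tl (o : X) (g : G) : ℝ := (disp_subadditive o g).lim

/-- The squared translation length. -/
def Q (o : X) (g : G) : ℝ := tl o g ^ 2

lemma tendsto_tl (o : X) (g : G) :
    Tendsto (fun n => disp o g n / n) atTop (𝓝 (tl o g)) :=
  (disp_subadditive o g).tendsto_lim ⟨0, by rintro x ⟨n, rfl⟩; simp only [disp]; positivity⟩

lemma tl_nonneg (o : X) (g : G) : 0 ≤ tl o g :=
  ge_of_tendsto (tendsto_tl o g) (Eventually.of_forall fun n => by simp only [disp]; positivity)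

lemma tl_le_disp (o : X) (g : G) {n : ℕ} (hn : n ≠ 0) : tl o g * n ≤ disp o g n := by
  have h := (disp_subadditive o g).lim_le_div
    ⟨0, by rintro x ⟨k, rfl⟩; simp only [disp]; positivity⟩ hn
  rwa [← le_div_iff₀ (Nat.cast_pos.2 (Nat.pos_of_ne_zero hn))]

lemma disp_inv (o : X) (g : G) : disp o g⁻¹ = disp o g := by
  funext n
  unfold disp
  rw [inv_pow, ← dist_smul (g ^ n) o ((g ^ n)⁻¹ • o), smul_inv_smul, dist_comm]

lemma tl_inv (o : X) (g : G) : tl o g⁻¹ = tl o g :=
  tendsto_nhds_unique (tendsto_tl o g⁻¹) (by rw [disp_inv]; exact tendsto_tl o g)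

lemma Q_inv (o : X) (g : G) : Q o g⁻¹ = Q o g := by rw [Q, Q, tl_inv]

lemma tl_one (o : X) : tl o (1 : G) = 0 :=
  tendsto_nhds_unique (tendsto_tl o 1) (by simp [disp])

lemma tl_sq (o : X) (g : G) : tl o (g ^ 2) = 2 * tl o g := by
  refine tendsto_nhds_unique (tendsto_tl o (g ^ 2)) ?_
  have h : Tendsto (fun n : ℕ => 2 * n) atTop atTop :=
    tendsto_id.const_mul_atTop' two_pos
  refine (((tendsto_tl o g).comp h).const_mul 2).congr fun n => ?_
  simp only [Function.comp_apply, disp, ← pow_mul]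
  push_cast
  rcases Nat.eq_zero_or_pos n with rfl | hn
  · simp
  · field_simp

/-- Some point is moved by at most `d(o, g^(2^k) o) / 2^k`. -/
lemma exists_small_disp (hX : CN X) (o : X) : ∀ (k : ℕ) (g : G),
    ∃ p : X, dist p (g • p) * 2 ^ k ≤ disp o g (2 ^ k) := by
  intro k
  induction k with
  | zero => exact fun g => ⟨o, by simp [disp]⟩
  | succ k ih =>
    intro g
    obtain ⟨p, hp⟩ := ih (g ^ 2)
    obtain ⟨m, hm⟩ := hX p (g • p)
    refine ⟨m, ?_⟩
    have hm' : ∀ z : X, dist z (g • m) ^ 2 ≤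
        dist z (g • p) ^ 2 / 2 + dist z (g • g • p) ^ 2 / 2 - dist p (g • p) ^ 2 / 4 := fun z => by
      have h := hm (g⁻¹ • z)
      rw [← dist_smul g (g⁻¹ • z) m, ← dist_smul g (g⁻¹ • z) p,
        ← dist_smul g (g⁻¹ • z) (g • p), smul_inv_smul] at h
      exact h
    have h1 := hm (g • m)
    have h2 := hm' p
    have h3 := hm' (g • p)
    rw [dist_smul g p (g • p), dist_self] at h3
    rw [dist_comm (g • m) p, dist_comm (g • m) (g • p), dist_comm (g • m) m] at h1
    have hp' : dist p (g • g • p) = dist p ((g ^ 2) • p) := by rw [sq g, mul_smul]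
    rw [hp'] at h2
    have hmm : dist m (g • m) ^ 2 ≤ (dist p ((g ^ 2) • p) / 2) ^ 2 := by linarith
    have hmm' := (pow_le_pow_iff_left₀ dist_nonneg (by positivity) two_ne_zero).1 hmm
    have hd : disp o (g ^ 2) (2 ^ k) = disp o g (2 ^ (k + 1)) := by
      simp only [disp]
      rw [← pow_mul, pow_succ' 2 k]
    rw [← hd]
    refine le_trans ?_ hp
    rw [pow_succ]
    nlinarith [pow_pos (two_pos (α := ℝ)) k]

/-- A lower bound on all displacements bounds the translation length. -/
lemma le_tl (hX : CN X) (o : X) {g : G} {r : ℝ} (h : ∀ x : X, r ≤ dist x (g • x)) :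
    r ≤ tl o g := by
  have h2 : Tendsto (fun k : ℕ => 2 ^ k) atTop atTop :=
    tendsto_pow_atTop_atTop_of_one_lt one_lt_two
  refine ge_of_tendsto ((tendsto_tl o g).comp h2) (Eventually.of_forall fun k => ?_)
  obtain ⟨p, hp⟩ := exists_small_disp hX o k g
  simp only [Function.comp_apply]
  push_cast
  rw [le_div_iff₀ (by positivity)]
  exact (mul_le_mul_of_nonneg_right (h p) (by positivity)).trans hp

lemma tendsto_Q (o : X) (g : G) :
    Tendsto (fun n => (disp o g n / n) ^ 2) atTop (𝓝 (Q o g)) :=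
  (tendsto_tl o g).pow 2

lemma parallelogram_le (hX : CN X) (o : X) {g h : G} (hgh : Commute g h) :
    Q o (g * h) + Q o (g⁻¹ * h) ≤ 2 * Q o g + 2 * Q o h := by
  have key : ∀ n : ℕ, (disp o (g * h) n) ^ 2 + (disp o (g⁻¹ * h) n) ^ 2 ≤
      2 * disp o g n ^ 2 + 2 * disp o h n ^ 2 := by
    intro n
    have h4 := four_point hX o (g ^ n • o) ((g * h) ^ n • o) (h ^ n • o)
    have e1 : dist (g ^ n • o) (h ^ n • o) = disp o (g⁻¹ * h) n := by
      rw [disp, ← dist_smul (g ^ n) o ((g⁻¹ * h) ^ n • o), ← mul_smul,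
        (hgh.inv_left).mul_pow, ← mul_assoc, inv_pow, mul_inv_cancel, one_mul]
    have e2 : dist (g ^ n • o) ((g * h) ^ n • o) = disp o h n := by
      rw [hgh.mul_pow, mul_smul, dist_smul, disp]
    have e3 : dist ((g * h) ^ n • o) (h ^ n • o) = disp o g n := by
      rw [hgh.mul_pow, (hgh.pow_pow n n).eq, mul_smul, dist_smul, dist_comm, disp]
    rw [e1, e2, e3, ← disp, ← disp, ← disp] at h4
    linarith
  refine le_of_tendsto_of_tendsto' ((tendsto_Q o (g * h)).add (tendsto_Q o (g⁻¹ * h)))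
    (((tendsto_Q o g).const_mul 2).add ((tendsto_Q o h).const_mul 2)) fun n => ?_
  simp only [div_pow]
  rw [← add_div, ← mul_div_assoc, ← mul_div_assoc, ← add_div]
  exact div_le_div_of_nonneg_right (key n) (sq_nonneg _)

/-- The parallelogram law. -/
theorem parallelogram (hX : CN X) (o : X) {g h : G} (hgh : Commute g h) :
    Q o (g * h) + Q o (g⁻¹ * h) = 2 * Q o g + 2 * Q o h := by
  refine le_antisymm (parallelogram_le hX o hgh) ?_
  have hc : Commute (g * h) (g⁻¹ * h) :=
    ((Commute.refl g).inv_right.mul_right hgh).mul_left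
      (hgh.symm.inv_right.mul_right (Commute.refl h))
  have h2 := parallelogram_le hX o hc
  have e1 : g * h * (g⁻¹ * h) = h ^ 2 := by
    rw [hgh.eq, mul_assoc, ← mul_assoc g, mul_inv_cancel, one_mul, sq]
  have e2 : (g * h)⁻¹ * (g⁻¹ * h) = (g ^ 2)⁻¹ := by
    rw [hgh.eq, mul_inv_rev, mul_assoc, ← mul_assoc h⁻¹, ← (hgh.inv_inv).eq, mul_assoc,
      inv_mul_cancel, mul_one, sq, mul_inv_rev]
  rw [e1, e2, Q_inv, Q, Q, tl_sq, tl_sq] at h2
  unfold Q at h2 ⊢
  linarith

/-- The inner product of two commuting elements. -/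
def ip (o : X) (g h : G) : ℝ := (Q o (g * h) - Q o (g⁻¹ * h)) / 4

lemma ip_symm (o : X) {g h : G} (hgh : Commute g h) : ip o g h = ip o h g := by
  unfold ip
  rw [hgh.eq, ← Q_inv o (g⁻¹ * h), mul_inv_rev, inv_inv]

lemma ip_inv_right (o : X) {g h : G} (hgh : Commute g h) : ip o g h⁻¹ = - ip o g h := by
  unfold ip
  rw [← Q_inv o (g * h⁻¹), ← Q_inv o (g⁻¹ * h⁻¹), mul_inv_rev, mul_inv_rev, inv_inv, inv_inv,
    ← hgh.inv_left.eq, ← hgh.eq]
  ring

lemma Q_pow_mul (hX : CN X) (o : X) {f h : G} (hc : Commute f h) (j : ℕ) :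
    Q o (f ^ j * h) = (j : ℝ) ^ 2 * Q o f + 2 * (j : ℝ) * ip o f h + Q o h := by
  induction j using Nat.twoStepInduction with
  | zero => simp
  | one =>
    have := parallelogram hX o hc
    simp only [pow_one, Nat.cast_one, ip]
    linarith
  | more j h0 h1 =>
    have hc' : Commute f (f ^ (j + 1) * h) := (Commute.self_pow f _).mul_right hc
    have := parallelogram hX o hc'
    rw [← mul_assoc, ← mul_assoc, ← pow_succ', pow_succ' f j, inv_mul_cancel_left] at this
    rw [pow_succ'] at this ⊢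
    rw [pow_succ'] at h1
    rw [h0, h1] at this
    push_cast at this ⊢
    linarith

/-- A sum bound forces large increments infinitely often. -/
lemma frequently_incr (u : ℕ → ℝ) {q : ℝ}
    (hu : Tendsto (fun n : ℕ => u n / (n : ℝ) ^ 2) atTop (𝓝 q))
    {e : ℝ} (he : 0 < e) :
    ∃ᶠ n : ℕ in atTop, 2 * (n : ℝ) * (q - e) ≤ u (n + 1) - u n := by
  by_contra hcon
  simp only [not_frequently, not_le] at hcon
  obtain ⟨n₀, hn₀⟩ := eventually_atTop.1 hcon
  have hsum : ∀ k : ℕ, u (n₀ + k) ≤
      u n₀ + ((n₀ + k : ℕ) : ℝ) ^ 2 * (q - e) - (n₀ : ℝ) ^ 2 * (q - e) +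
        (k : ℝ) * |q - e| := by
    intro k
    induction k with
    | zero => simp
    | succ k ih =>
      have h1 := hn₀ (n₀ + k) (Nat.le_add_right _ _)
      have h2 := neg_abs_le (q - e)
      have h3 := le_abs_self (q - e)
      rw [← Nat.add_assoc]
      push_cast at *
      nlinarith
  have hnat := (tendsto_natCast_atTop_atTop (R := ℝ))
  have hinv1 : Tendsto (fun n : ℕ => |q - e| * ((n : ℝ))⁻¹) atTop (𝓝 (|q - e| * 0)) :=
    (tendsto_inv_atTop_zero.comp hnat).const_mul _
  have hinv2 : Tendsto (fun n : ℕ => (|u n₀| + (n₀ : ℝ) ^ 2 * |q - e|) * ((n : ℝ) ^ 2)⁻¹) atTop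
      (𝓝 ((|u n₀| + (n₀ : ℝ) ^ 2 * |q - e|) * 0)) :=
    (tendsto_inv_atTop_zero.comp ((tendsto_pow_atTop two_ne_zero).comp hnat)).const_mul _
  have hlim := (hinv2.add hinv1).const_add (q - e)
  have := le_of_tendsto_of_tendsto hu hlim (eventually_atTop.2 ⟨n₀ + 1, fun n hn => ?_⟩)
  · simp at this
    linarith
  · obtain ⟨k, rfl⟩ := Nat.exists_eq_add_of_le (show n₀ ≤ n by omega)
    have hpos : (0 : ℝ) < ((n₀ + k : ℕ) : ℝ) := Nat.cast_pos.2 (by omega)
    rw [div_le_iff₀ (pow_pos hpos 2)]
    have hk : (k : ℝ) ≤ ((n₀ + k : ℕ) : ℝ) := Nat.cast_le.2 (by omega)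
    have h4 := mul_le_mul_of_nonneg_left (le_abs_self (-(q - e))) (sq_nonneg (n₀ : ℝ))
    rw [abs_neg] at h4
    have h5 := mul_le_mul_of_nonneg_right hk (abs_nonneg (q - e))
    have e1 : ((q - e) + ((|u n₀| + (n₀ : ℝ) ^ 2 * |q - e|) * (((n₀ + k : ℕ) : ℝ) ^ 2)⁻¹ +
        |q - e| * (((n₀ + k : ℕ) : ℝ))⁻¹)) * ((n₀ + k : ℕ) : ℝ) ^ 2 =
        (q - e) * ((n₀ + k : ℕ) : ℝ) ^ 2 + (|u n₀| + (n₀ : ℝ) ^ 2 * |q - e|) +
          |q - e| * ((n₀ + k : ℕ) : ℝ) := by field_simp; ring
    rw [e1]
    linarith [hsum k, le_abs_self (u n₀)]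

/-- The normalised quasi inner product with a far translate of `f`. -/
def pairing (o : X) (f h : G) (n : ℕ) : ℝ := qip o (f ^ n • o) o (h • o) / (2 * n)

omit [IsIsometricSMul G X] in
lemma abs_pairing_le (hX : CN X) (o : X) (f h : G) (n : ℕ) :
    |pairing o f h n| ≤ disp o f n / n * disp o h 1 := by
  unfold pairing
  rw [abs_div, abs_of_nonneg (show (0 : ℝ) ≤ 2 * n by positivity)]
  refine (div_le_div_of_nonneg_right (abs_qip_le hX _ _ _ _) (by positivity)).trans_eq ?_
  rw [disp, disp, pow_one]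
  rcases Nat.eq_zero_or_pos n with rfl | hn
  · simp
  · field_simp

lemma qip_smul (g : G) (a b c d : X) : qip (g • a) (g • b) (g • c) (g • d) = qip a b c d := by
  simp only [qip, dist_smul]

lemma pairing_mul (hX : CN X) (o : X) {f g : G} (hg : Commute f g) (h : G) (n : ℕ) :
    |pairing o f (g * h) n - (pairing o f g n + pairing o f h n)| ≤
      2 * (dist o (g • o) * dist o (h • o)) * (n : ℝ)⁻¹ := by
  have e : qip o (f ^ n • o) o ((g * h) • o) =
      qip o (f ^ n • o) o (g • o) + qip o (f ^ n • o) (g • o) ((g * h) • o) := by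
    unfold qip; ring
  have e2 : qip o (f ^ n • o) (g • o) ((g * h) • o) =
      qip o (g • o) (g • o) ((g * h) • o) + qip (g • o) (g • f ^ n • o) (g • o) (g • h • o) -
        qip (f ^ n • o) (g • f ^ n • o) (g • o) ((g * h) • o) := by
    rw [← mul_smul g h o]
    unfold qip; ring
  rw [qip_smul] at e2
  have b1 := abs_qip_le hX o (g • o) (g • o) ((g * h) • o)
  have b2 := abs_qip_le hX (f ^ n • o) (g • f ^ n • o) (g • o) ((g * h) • o)
  rw [mul_smul g h o, dist_smul, ← mul_smul] at b1 b2
  rw [← mul_smul g, ← (hg.pow_left n).eq, mul_smul, dist_smul, ← mul_smul] at b2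
  rw [← mul_smul g (f ^ n), ← (hg.pow_left n).eq, mul_smul] at e2
  rcases Nat.eq_zero_or_pos n with rfl | hn
  · simp [pairing]
  have hn' : (0 : ℝ) < n := Nat.cast_pos.2 hn
  unfold pairing
  rw [← mul_smul g h o] at e2
  rw [e, e2, ← add_div, ← sub_div, abs_div, abs_of_pos (show (0 : ℝ) < 2 * n by linarith),
    div_le_iff₀ (by linarith)]
  have h1 := abs_le.1 b1
  have h2 := abs_le.1 b2
  have e3 : 2 * (dist o (g • o) * dist o (h • o)) * (n : ℝ)⁻¹ * (2 * n) =
      4 * (dist o (g • o) * dist o (h • o)) := by field_simp; ring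
  rw [e3]
  exact abs_le.2 ⟨by linarith, by linarith⟩

lemma pairing_self_ge (o : X) (f : G) {n : ℕ} {c : ℝ}
    (h : 2 * (n : ℝ) * c ≤ disp o f (n + 1) ^ 2 - disp o f n ^ 2) :
    c * ((n : ℝ) / (n + 1)) ≤ pairing o f f (n + 1) := by
  have e : qip o (f ^ (n + 1) • o) o (f • o) =
      disp o f 1 ^ 2 + (disp o f (n + 1) ^ 2 - disp o f n ^ 2) := by
    simp only [qip, disp, pow_one, dist_self]
    have h1 : dist (f ^ (n + 1) • o) (f • o) = dist o (f ^ n • o) := by
      rw [dist_comm, pow_succ', mul_smul, dist_smul]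
    rw [h1, dist_comm (f ^ (n + 1) • o) o]
    ring
  unfold pairing
  rw [e, le_div_iff₀ (by positivity)]
  push_cast
  have e2 : c * ((n : ℝ) / ((n : ℝ) + 1)) * (2 * ((n : ℝ) + 1)) = 2 * (n : ℝ) * c := by
    field_simp
  rw [e2]
  linarith [sq_nonneg (disp o f 1)]

/-- An element of positive translation length gives an additive function on its centraliser. -/
theorem exists_hom (hX : CN X) (o : X) (f : G) :
    ∃ φ : G → ℝ, (∀ g h, Commute f g → φ (g * h) = φ g + φ h) ∧ Q o f ≤ φ f ∧
      ∀ h, Commute f h → |φ h| ≤ tl o f * tl o h := by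
  -- a sequence along which the pairing of `f` with itself is nearly maximal
  have hu : Tendsto (fun n : ℕ => disp o f n ^ 2 / (n : ℝ) ^ 2) atTop (𝓝 (Q o f)) := by
    simpa [div_pow] using tendsto_Q o f
  have hfreq : ∀ k : ℕ, ∃ n, k ≤ n ∧
      2 * (n : ℝ) * (Q o f - 1 / ((k : ℝ) + 1)) ≤ disp o f (n + 1) ^ 2 - disp o f n ^ 2 :=
    fun k => frequently_atTop.1 (frequently_incr _ hu (by positivity)) k
  choose N hNk hN using hfreq
  set U : Ultrafilter ℕ := Ultrafilter.of atTop with hU
  have hU' : (U : Filter ℕ) ≤ atTop := Ultrafilter.of_le _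
  have hNtop : Tendsto N (U : Filter ℕ) atTop :=
    (tendsto_atTop_mono hNk tendsto_id).mono_left hU'
  have hN1 : Tendsto (fun k => N k + 1) (U : Filter ℕ) atTop :=
    (tendsto_add_atTop_nat 1).comp hNtop
  have hex : ∀ h : G, ∃ l, Tendsto (fun k => pairing o f h (N k + 1)) (U : Filter ℕ) (𝓝 l) := by
    intro h
    have hb : ∀ k, pairing o f h (N k + 1) ∈
        Set.Icc (-(disp o f 1 * disp o h 1)) (disp o f 1 * disp o h 1) := by
      intro k
      refine abs_le.1 ((abs_pairing_le hX o f h _).trans (mul_le_mul_of_nonneg_right ?_ ?_))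
      · rw [div_le_iff₀ (by positivity)]
        have : ∀ m : ℕ, disp o f m ≤ disp o f 1 * m := by
          intro m
          induction m with
          | zero => simp [disp]
          | succ m ih =>
            have := disp_subadditive o f m 1
            push_cast
            linarith
        exact this _
      · simp only [disp]; positivity
    obtain ⟨l, -, hl⟩ := (isCompact_Icc (a := -(disp o f 1 * disp o h 1))
      (b := disp o f 1 * disp o h 1)).ultrafilter_le_nhds
      (U.map fun k => pairing o f h (N k + 1))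
      (le_principal_iff.2 ((eventually_map (m := fun k => pairing o f h (N k + 1))
        (f := (U : Filter ℕ))).2 (Eventually.of_forall hb)))
    exact ⟨l, hl⟩
  choose φ hφ using hex
  have hadd : ∀ g h, Commute f g → φ (g * h) = φ g + φ h := by
    intro g h hg
    have hz : Tendsto (fun k => 2 * (dist o (g • o) * dist o (h • o)) * ((N k + 1 : ℕ) : ℝ)⁻¹)
        (U : Filter ℕ) (𝓝 (2 * (dist o (g • o) * dist o (h • o)) * 0)) :=
      (tendsto_inv_atTop_zero.comp
        ((tendsto_natCast_atTop_atTop (R := ℝ)).comp hN1)).const_mul _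
    rw [mul_zero] at hz
    have h0 : Tendsto (fun k => pairing o f (g * h) (N k + 1) -
        (pairing o f g (N k + 1) + pairing o f h (N k + 1))) (U : Filter ℕ) (𝓝 0) :=
      squeeze_zero_norm (fun k => pairing_mul hX o hg h _) hz
    have h1 := tendsto_nhds_unique ((hφ (g * h)).sub ((hφ g).add (hφ h))) h0
    linarith
  have hbound : ∀ h, |φ h| ≤ tl o f * disp o h 1 := fun h =>
    le_of_tendsto_of_tendsto' (hφ h).abs (((tendsto_tl o f).comp hN1).mul_const _)
      fun k => abs_pairing_le hX o f h _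
  refine ⟨φ, hadd, ?_, fun h hh => ?_⟩
  · have hk : Tendsto (fun k : ℕ => (Q o f - 1 / ((k : ℝ) + 1)) * ((N k : ℝ) / ((N k : ℝ) + 1)))
        (U : Filter ℕ) (𝓝 ((Q o f - 0) * 1)) :=
      ((tendsto_one_div_add_atTop_nhds_zero_nat.mono_left hU').const_sub _).mul
        ((tendsto_natCast_div_add_atTop (1 : ℝ)).comp hNtop)
    rw [sub_zero, mul_one] at hk
    exact le_of_tendsto_of_tendsto' hk (hφ f) fun k => pairing_self_ge o f (hN k)
  · have hpow : ∀ j : ℕ, φ (h ^ (j + 1)) = ((j : ℝ) + 1) * φ h := by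
      intro j
      induction j with
      | zero => simp
      | succ j ih =>
        rw [pow_succ, hadd _ _ (hh.pow_right _), ih]
        push_cast
        ring
    refine ge_of_tendsto (((tendsto_tl o h).comp (tendsto_add_atTop_nat 1)).const_mul (tl o f))
      (Eventually.of_forall fun j => ?_)
    have := hbound (h ^ (j + 1))
    rw [hpow, abs_mul, abs_of_nonneg (show (0 : ℝ) ≤ (j : ℝ) + 1 by positivity),
      show disp o (h ^ (j + 1)) 1 = disp o h (j + 1) by simp [disp]] at this
    simp only [Function.comp_apply, Nat.cast_add, Nat.cast_one]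
    rw [← mul_div_assoc, le_div_iff₀ (by positivity)]
    linarith

/-- The additive function is the inner product against `f`. -/
theorem exists_hom_ip (hX : CN X) (o : X) (f : G) (hf : 0 < tl o f) :
    ∃ φ : G → ℝ, (∀ g h, Commute f g → φ (g * h) = φ g + φ h) ∧ φ f = Q o f ∧
      ∀ h, Commute f h → φ h = ip o f h := by
  obtain ⟨φ, hadd, hself, hbd⟩ := exists_hom hX o f
  have hff : φ f = Q o f :=
    le_antisymm (le_trans (le_abs_self _) ((hbd f (Commute.refl f)).trans_eq (sq _).symm)) hself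
  have hpow : ∀ (j : ℕ) (h : G), φ (f ^ j * h) = (j : ℝ) * Q o f + φ h := by
    intro j h
    induction j with
    | zero => simp
    | succ j ih =>
      rw [pow_succ', mul_assoc, hadd _ _ (Commute.refl f), ih, hff]
      push_cast
      ring
  -- one side of the comparison
  have hle : ∀ h, Commute f h → φ h ≤ ip o f h := by
    intro h hc
    by_contra hlt
    push Not at hlt
    have hQ : 0 < Q o f := pow_pos hf 2
    obtain ⟨j, hj⟩ := exists_nat_gt (Q o h / (2 * (φ h - ip o f h)))
    rw [div_lt_iff₀ (by linarith)] at hj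
    have h1 := hbd _ ((Commute.self_pow f j).mul_right hc)
    rw [hpow] at h1
    have h2 := pow_le_pow_left₀ (abs_nonneg _) h1 2
    rw [sq_abs, mul_pow, ← Q, ← Q, Q_pow_mul hX o hc] at h2
    nlinarith [mul_lt_mul_of_pos_left hj hQ, sq_nonneg (φ h)]
  refine ⟨φ, hadd, hff, fun h hc => le_antisymm (hle h hc) ?_⟩
  have h1 := hle h⁻¹ hc.inv_right
  have hone : φ 1 = 0 := by
    have := hadd 1 1 (Commute.one_right f)
    rw [one_mul] at this
    linarith
  have h2 := hadd h h⁻¹ hc
  rw [mul_inv_cancel, hone] at h2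
  rw [ip_inv_right o hc] at h1
  linarith

lemma tl_conj (o : X) (c g : G) : tl o (c * g * c⁻¹) = tl o g := by
  have hb : ∀ n, |disp o (c * g * c⁻¹) n - disp o g n| ≤ 2 * dist o (c⁻¹ • o) := by
    intro n
    have e : disp o (c * g * c⁻¹) n = dist (c⁻¹ • o) (g ^ n • c⁻¹ • o) := by
      rw [disp, conj_pow, mul_smul, mul_smul, ← dist_smul c⁻¹ o, inv_smul_smul]
    rw [e, disp]
    have h1 := dist_triangle4 (c⁻¹ • o) o (g ^ n • o) (g ^ n • c⁻¹ • o)
    have h2 := dist_triangle4 o (c⁻¹ • o) (g ^ n • c⁻¹ • o) (g ^ n • o)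
    rw [dist_smul, dist_comm (c⁻¹ • o) o] at h1
    rw [dist_smul, dist_comm (c⁻¹ • o) o] at h2
    exact abs_le.2 ⟨by linarith, by linarith⟩
  have h0 : Tendsto (fun n => disp o (c * g * c⁻¹) n / n - disp o g n / n) atTop (𝓝 0) := by
    refine squeeze_zero_norm (fun n => ?_)
      (tendsto_const_div_atTop_nhds_zero_nat (2 * dist o (c⁻¹ • o)))
    rw [← sub_div, Real.norm_eq_abs, abs_div, Nat.abs_cast]
    exact div_le_div_of_nonneg_right (hb n) (Nat.cast_nonneg n)
  have := tendsto_nhds_unique ((tendsto_tl o (c * g * c⁻¹)).sub (tendsto_tl o g)) h0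
  linarith

lemma ip_conj (o : X) (c g h : G) : ip o (c * g * c⁻¹) (c * h * c⁻¹) = ip o g h := by
  simp only [ip, Q, conj_inv, conj_mul, tl_conj]

lemma ip_self (o : X) (g : G) : ip o g g = Q o g := by
  unfold ip
  rw [← sq, inv_mul_cancel, Q, Q, tl_sq, tl_one, Q]
  ring

/-- The relation in a vertex group: if loops commuting with the fibre `f` multiply to `f ^ k`,
their inner products with `f` add up to `k Q f`. -/
theorem sum_ip_eq (hX : CN X) (o : X) {f : G} (hf : 0 < tl o f) (l : List G) (k : ℤ)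
    (hl : ∀ b ∈ l, Commute f b) (hprod : l.prod = f ^ k) :
    (l.map (ip o f)).sum = (k : ℝ) * Q o f := by
  obtain ⟨φ, hadd, hff, hip⟩ := exists_hom_ip hX o f hf
  have hone : φ 1 = 0 := by
    have := hadd 1 1 (Commute.one_right f)
    rw [one_mul] at this
    linarith
  have hl' : φ l.prod = (l.map (ip o f)).sum := by
    clear hprod
    induction l with
    | nil => simpa using hone
    | cons b l ih =>
      rw [List.prod_cons, hadd _ _ (hl b (List.mem_cons_self ..)), List.map_cons, List.sum_cons,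
        hip b (hl b (List.mem_cons_self ..)), ih fun x hx => hl x (List.mem_cons_of_mem b hx)]
  have hk : ∀ j : ℤ, φ (f ^ j) = (j : ℝ) * Q o f := by
    intro j
    induction j using Int.induction_on with
    | zero => simpa using hone
    | succ i hi =>
      rw [zpow_add_one, hadd _ _ ((Commute.refl f).zpow_right _), hi, hff]
      push_cast
      ring
    | pred i hi =>
      have h1 := hadd (f ^ (-(i : ℤ) - 1)) f ((Commute.refl f).zpow_right _)
      rw [← zpow_add_one, sub_add_cancel, hi, hff] at h1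
      push_cast at h1 ⊢
      linarith
  rw [← hl', hprod, hk]

end Vale.Agent.P255.Cat
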